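import Vale.Agent.P050.TDefs

/-!
The Hoelder step for graphs whose right vertices see at most one vertex of each class.
-/

namespace Vale.Agent.P050.H19

open Finset

section Hol

variable {ι B U : Type} [Fintype ι] [DecidableEq ι] [Fintype B] [Fintype U]

open Classical in
/-- indicator of adjacency -/
noncomputable def ad (G : SimpleGraph U) (u y : U) : ℝ := if G.Adj u y then 1 else 0

/-- relative number of common neighbours of the `z i`, `i ∈ S` -/
noncomputable def tau (G : SimpleGraph U) (S : Finset ι) (z : ι → U) : ℝ :=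
  (∑ y, ∏ i ∈ S, ad G (z i) y) / Fintype.card U

/-- relative degree -/
noncomputable def dg (G : SimpleGraph U) (y : U) : ℝ := (∑ u, ad G u y) / Fintype.card U

lemma ad_nonneg (G : SimpleGraph U) (u y : U) : 0 ≤ ad G u y := by
  unfold ad; split_ifs <;> norm_num

lemma ad_le (G : SimpleGraph U) (u y : U) : ad G u y ≤ 1 := by
  unfold ad; split_ifs <;> norm_num

lemma tau_nonneg (G : SimpleGraph U) (S : Finset ι) (z : ι → U) : 0 ≤ tau G S z :=
  div_nonneg (sum_nonneg fun _ _ => prod_nonneg fun _ _ => ad_nonneg G _ _) (by positivity)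

lemma dg_nonneg (G : SimpleGraph U) (y : U) : 0 ≤ dg G y :=
  div_nonneg (sum_nonneg fun _ _ => ad_nonneg G _ _) (by positivity)

lemma sum_update [Nonempty U] (a : ι) (F : (ι → U) → ℝ) :
    ∑ z : ι → U, ∑ u : U, F (Function.update z a u) = Fintype.card U * ∑ z, F z := by
  rw [← Fintype.sum_prod_type' (f := fun z u => F (Function.update z a u))]
  have e : ∑ p : (ι → U) × U, F (Function.update p.1 a p.2) = ∑ p : (ι → U) × U, F p.1 := by
    refine Fintype.sum_equiv
      ⟨fun p => (Function.update p.1 a p.2, p.1 a), fun p => (Function.update p.1 a p.2, p.1 a),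
        fun p => ?_, fun p => ?_⟩ _ _ fun p => rfl
    · ext1 <;> simp
    · ext1 <;> simp
  rw [e, Fintype.sum_prod_type' (f := fun (y : ι → U) (_ : U) => F y)]
  simp only [sum_const, card_univ, nsmul_eq_mul]
  rw [← mul_sum]

lemma indep [Nonempty U] {h : (ι → U) → ℝ} {S : Finset ι}
    (hS : ∀ z a u, a ∉ S → h (Function.update z a u) = h z) (w : U → ℝ) (T : Finset ι)
    (hT : ∀ a ∈ T, a ∉ S) :
    ∑ z, h z * ∏ i ∈ T, w (z i) = ((∑ u, w u) / Fintype.card U) ^ T.card * ∑ z, h z := by
  have hc : (0 : ℝ) < Fintype.card U := by exact_mod_cast Fintype.card_pos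
  induction T using Finset.induction_on with
  | empty => simp
  | insert a T ha ih =>
    have h1 := sum_update a (fun z => h z * ∏ i ∈ insert a T, w (z i))
    have h2 : ∀ z : ι → U, ∑ u : U, (h (Function.update z a u) *
        ∏ i ∈ insert a T, w (Function.update z a u i)) =
        (∑ u, w u) * (h z * ∏ i ∈ T, w (z i)) := by
      intro z
      rw [sum_mul]
      refine sum_congr rfl fun u _ => ?_
      rw [hS z a u (hT a (mem_insert_self a T)), prod_insert ha, Function.update_self]
      have : ∏ i ∈ T, w (Function.update z a u i) = ∏ i ∈ T, w (z i) := by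
        refine prod_congr rfl fun i hi => ?_
        rw [Function.update_of_ne (ne_of_mem_of_not_mem hi ha)]
      rw [this]; ring
    simp only [h2] at h1
    rw [← mul_sum, ih fun b hb => hT b (mem_insert_of_mem hb)] at h1
    rw [card_insert_of_notMem ha, pow_succ]
    have : ∑ z, h z * ∏ i ∈ insert a T, w (z i) =
        (∑ u, w u) * (((∑ u, w u) / Fintype.card U) ^ T.card * ∑ z, h z) / Fintype.card U := by
      rw [h1]; field_simp
    rw [this]; ring

lemma sum_one [Nonempty U] (G : SimpleGraph U) (S : Finset ι) :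
    ∑ y : U, ∑ z : ι → U, (∏ i, ad G (z i) y) * (1 / (tau G S z * dg G y ^ (Sᶜ).card)) ≤
      (Fintype.card U : ℝ) ^ Fintype.card ι * Fintype.card U := by
  have hc : (0 : ℝ) < Fintype.card U := by exact_mod_cast Fintype.card_pos
  have h1 : ∀ y : U, ∑ z : ι → U, (∏ i, ad G (z i) y) * (1 / (tau G S z * dg G y ^ (Sᶜ).card)) ≤
      ∑ z : ι → U, (∏ i ∈ S, ad G (z i) y) / tau G S z := by
    intro y
    have h2 := indep (h := fun z : ι → U => (∏ i ∈ S, ad G (z i) y) / tau G S z) (S := S)
      (fun z a u ha => by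
        have : ∀ v, ∏ i ∈ S, ad G (Function.update z a u i) v = ∏ i ∈ S, ad G (z i) v := fun v =>
          prod_congr rfl fun i hi => by rw [Function.update_of_ne (ne_of_mem_of_not_mem hi ha)]
        simp only [tau, this]) (fun u => ad G u y) Sᶜ (fun a ha => by simpa using ha)
    have h3 : ∀ z : ι → U, (∏ i, ad G (z i) y) * (1 / (tau G S z * dg G y ^ (Sᶜ).card)) =
        (∏ i ∈ S, ad G (z i) y) / tau G S z * (∏ i ∈ Sᶜ, ad G (z i) y) *
          (1 / dg G y ^ (Sᶜ).card) := by
      intro z
      rw [← prod_mul_prod_compl S fun i => ad G (z i) y]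
      rw [one_div, one_div, mul_inv, div_eq_mul_inv]
      ring
    simp only [h3]
    rw [← sum_mul, h2]
    have h4 : 0 ≤ ∑ z : ι → U, (∏ i ∈ S, ad G (z i) y) / tau G S z :=
      sum_nonneg fun z _ => div_nonneg (prod_nonneg fun _ _ => ad_nonneg G _ _) (tau_nonneg G S z)
    have h5 : ((∑ u, ad G u y) / Fintype.card U) ^ (Sᶜ).card * (1 / dg G y ^ (Sᶜ).card) ≤ 1 := by
      rw [mul_one_div]
      exact div_self_le_one _
    calc _ = (((∑ u, ad G u y) / Fintype.card U) ^ (Sᶜ).card * (1 / dg G y ^ (Sᶜ).card)) *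
          ∑ z : ι → U, (∏ i ∈ S, ad G (z i) y) / tau G S z := by ring
      _ ≤ 1 * ∑ z : ι → U, (∏ i ∈ S, ad G (z i) y) / tau G S z :=
          mul_le_mul_of_nonneg_right h5 h4
      _ = _ := one_mul _
  refine (sum_le_sum fun y _ => h1 y).trans ?_
  rw [sum_comm]
  have h6 : ∀ z : ι → U, ∑ y : U, (∏ i ∈ S, ad G (z i) y) / tau G S z ≤ Fintype.card U := by
    intro z
    rw [← sum_div]
    have : ∑ y : U, ∏ i ∈ S, ad G (z i) y = Fintype.card U * tau G S z := by
      unfold tau; field_simp
    rw [this, mul_div_assoc]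
    have := div_self_le_one (tau G S z)
    nlinarith
  refine (sum_le_sum fun z _ => h6 z).trans (le_of_eq ?_)
  rw [sum_const, card_univ, Fintype.card_fun, nsmul_eq_mul]
  push_cast; ring

lemma sum_zero [Nonempty U] (G : SimpleGraph U) {ρ : (ι → U) → ℝ} (hρ : ∀ z, 0 ≤ ρ z) :
    ∑ y : U, ∑ z : ι → U, (∏ i, ad G (z i) y) * (ρ z / tau G univ z) ≤
      Fintype.card U * ∑ z, ρ z := by
  have hc : (0 : ℝ) < Fintype.card U := by exact_mod_cast Fintype.card_pos
  rw [sum_comm, mul_sum]
  refine sum_le_sum fun z _ => ?_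
  rw [← sum_mul]
  have : ∑ y : U, ∏ i, ad G (z i) y = Fintype.card U * tau G univ z := by
    unfold tau; field_simp
  rw [this]
  have h := div_self_le_one (tau G univ z)
  calc _ = (Fintype.card U : ℝ) * ρ z * (tau G univ z / tau G univ z) := by ring
    _ ≤ (Fintype.card U : ℝ) * ρ z * 1 := by
        refine mul_le_mul_of_nonneg_left h (mul_nonneg hc.le (hρ z))
    _ = _ := by ring

lemma edge_mean (G : SimpleGraph U) : edgeDensity G = (∑ y, dg G y) / Fintype.card U := by
  classical
  unfold edgeDensity dg ad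
  rw [← sum_div, div_div, Nat.card_eq_fintype_card, Nat.card_eq_fintype_card, ← sq]
  congr 1
  have h := G.sum_degrees_eq_twice_card_edges
  have h2 : (Fintype.card G.edgeSet : ℕ) = #G.edgeFinset := by
    rw [← SimpleGraph.edgeFinset_card]
  rw [h2]
  have h3 : ∀ y : U, (∑ u : U, if G.Adj u y then (1 : ℝ) else 0) = (G.degree y : ℝ) := by
    intro y
    rw [sum_boole]
    congr 1
    rw [← SimpleGraph.card_neighborFinset_eq_degree]
    congr 1
    ext u
    simp [G.adj_comm]
  have h4 : (∑ y : U, ∑ u : U, if G.Adj u y then (1 : ℝ) else 0) = ((∑ y, G.degree y : ℕ) : ℝ) := by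
    push_cast
    exact sum_congr rfl fun y _ => h3 y
  rw [h4, h]
  push_cast
  ring

/-- the Hoelder step -/
theorem hoelder [Nonempty U] (G : SimpleGraph U) (I : B → Finset ι) (hI : ∀ b, (I b).Nonempty)
    (F : Finset B) (hF : ∀ b ∈ F, I b = univ) (hK : F.Nonempty) :
    edgeDensity G ^ (∑ b, (I b).card) ≤
      ((∑ z : ι → U, ∏ b, tau G (I b) z ^ (1 / (F.card : ℝ))) /
        (Fintype.card U : ℝ) ^ Fintype.card ι) ^ F.card := by
  classical
  have hc : (0 : ℝ) < Fintype.card U := by exact_mod_cast Fintype.card_pos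
  obtain ⟨b0, hb0⟩ := hK
  have hK0 : (0 : ℝ) < F.card := by exact_mod_cast card_pos.2 ⟨b0, hb0⟩
  obtain ⟨i0, hi0⟩ := hI b0
  have hN0 : (0 : ℝ) < Fintype.card B := by exact_mod_cast Fintype.card_pos_iff.2 ⟨b0⟩
  set n : ℝ := (Fintype.card U : ℝ) with hn
  set d : ℕ := Fintype.card ι with hd
  set N : ℝ := (Fintype.card B : ℝ) with hN
  set ρ : (ι → U) → ℝ := fun z => ∏ b, tau G (I b) z ^ (1 / (F.card : ℝ)) with hρ
  have hρ0 : ∀ z, 0 ≤ ρ z := fun z => prod_nonneg fun b _ => Real.rpow_nonneg (tau_nonneg G _ z) _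
  set lam : ℝ := (∑ z : ι → U, ρ z) / n ^ d with hlam
  have hlam0 : 0 ≤ lam := div_nonneg (sum_nonneg fun z _ => hρ0 z) (by positivity)
  have hdg0 : ∀ y, 0 ≤ dg G y := dg_nonneg G
  -- positivity on the support
  have had : ∀ (z : ι → U) (y : U), (∏ i, ad G (z i) y) ≠ 0 → ∀ i, G.Adj (z i) y := by
    intro z y h i
    by_contra hh
    exact h (prod_eq_zero (mem_univ i) (by unfold ad; rw [if_neg hh]))
  have hone : ∀ (z : ι → U) (y : U), (∏ i, ad G (z i) y) ≠ 0 → (∏ i, ad G (z i) y) = 1 := by
    intro z y h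
    exact prod_eq_one fun i _ => by unfold ad; rw [if_pos (had z y h i)]
  have htau : ∀ (z : ι → U) (y : U), (∏ i, ad G (z i) y) ≠ 0 → ∀ S : Finset ι, 0 < tau G S z := by
    intro z y h S
    unfold tau
    refine div_pos (lt_of_lt_of_le one_pos ?_) hc
    refine le_trans (le_of_eq ?_) (single_le_sum (f := fun y => ∏ i ∈ S, ad G (z i) y)
      (fun v _ => prod_nonneg fun _ _ => ad_nonneg G _ _) (mem_univ y))
    exact (prod_eq_one fun i _ => by unfold ad; rw [if_pos (had z y h i)]).symm
  have hdg : ∀ (z : ι → U) (y : U), (∏ i, ad G (z i) y) ≠ 0 → 0 < dg G y := by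
    intro z y h
    unfold dg
    refine div_pos (lt_of_lt_of_le one_pos ?_) hc
    refine le_trans (le_of_eq ?_) (single_le_sum (f := fun u => ad G u y)
      (fun v _ => ad_nonneg G _ _) (mem_univ (z i0)))
    unfold ad; rw [if_pos (had z y h i0)]
  have hpe := edge_mean G
  have hp0 : 0 ≤ edgeDensity G := by
    rw [hpe]; exact div_nonneg (sum_nonneg fun y _ => hdg0 y) hc.le
  by_cases hl : lam = 0
  · -- no edges
    have hz : ∀ y, dg G y = 0 := by
      intro y
      by_contra hy
      have : ∃ u, G.Adj u y := by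
        by_contra hh
        refine hy ?_
        unfold dg
        rw [sum_eq_zero fun u _ => by unfold ad; rw [if_neg fun h => hh ⟨u, h⟩], zero_div]
      obtain ⟨u, hu⟩ := this
      have h1 : (∏ i : ι, ad G ((fun _ : ι => u) i) y) ≠ 0 := by
        rw [prod_eq_one fun i _ => by unfold ad; rw [if_pos hu]]; exact one_ne_zero
      have h2 : 0 < ρ fun _ => u := prod_pos fun b _ => Real.rpow_pos_of_pos (htau _ y h1 _) _
      have h3 : 0 < lam := by
        refine div_pos (lt_of_lt_of_le h2 ?_) (by positivity)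
        exact single_le_sum (f := ρ) (fun z _ => hρ0 z) (mem_univ _)
      exact h3.ne' hl
    have hp : edgeDensity G = 0 := by
      rw [hpe, sum_eq_zero fun y _ => hz y, zero_div]
    rw [hp, zero_pow]
    · exact pow_nonneg hlam0 _
    · intro h
      have := (sum_eq_zero_iff.1 h) b0 (mem_univ b0)
      exact (card_pos.2 (hI b0)).ne' this
  have hlpos : 0 < lam := lt_of_le_of_ne hlam0 (Ne.symm hl)
  -- exponents
  set M : ℝ := ∑ b, (((I b)ᶜ).card : ℝ) with hM
  set e : ℝ := ∑ b, ((I b).card : ℝ) with he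
  have hMe : M + e = N * d := by
    rw [hM, he, ← sum_add_distrib]
    have : ∀ b ∈ (univ : Finset B), (((I b)ᶜ).card : ℝ) + ((I b).card : ℝ) = (d : ℝ) := by
      intro b _
      rw [hd]
      exact_mod_cast card_compl_add_card (I b)
    rw [sum_congr rfl this, sum_const, card_univ, nsmul_eq_mul]
  have heN : N ≤ e := by
    have : ∀ b ∈ (univ : Finset B), (1 : ℝ) ≤ ((I b).card : ℝ) := by
      intro b _
      exact_mod_cast card_pos.2 (hI b)
    have h := sum_le_sum this
    rw [sum_const, card_univ, nsmul_eq_mul, mul_one] at h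
    exact h
  -- pointwise
  have hpt : ∀ (y : U) (z : ι → U), (∏ i, ad G (z i) y) *
      Real.exp ((-(F.card : ℝ) * Real.log lam - M * Real.log (dg G y)) / N) ≤
      (1 / N) * ∑ b, (∏ i, ad G (z i) y) * (if b ∈ F then ρ z / tau G univ z * (1 / lam)
        else 1 / (tau G (I b) z * dg G y ^ ((I b)ᶜ).card)) := by
    intro y z
    by_cases h0 : (∏ i, ad G (z i) y) = 0
    · simp [h0]
    rw [hone z y h0]
    simp only [one_mul]
    have hd0 := hdg z y h0
    have ht := htau z y h0
    have hrp : 0 < ρ z := prod_pos fun b _ => Real.rpow_pos_of_pos (ht _) _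
    set w : B → ℝ := fun b => if b ∈ F then ρ z / tau G univ z * (1 / lam)
        else 1 / (tau G (I b) z * dg G y ^ ((I b)ᶜ).card) with hw
    have hw0 : ∀ b, 0 < w b := by
      intro b
      simp only [hw]
      split_ifs
      · exact mul_pos (div_pos hrp (ht _)) (one_div_pos.2 hlpos)
      · exact one_div_pos.2 (mul_pos (ht _) (pow_pos hd0 _))
    have hg := Real.geom_mean_le_arith_mean_weighted (univ : Finset B) (fun _ => 1 / N) w
      (fun _ _ => by positivity) (by rw [sum_const, card_univ, nsmul_eq_mul, ← hN]; field_simp)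
      (fun b _ => (hw0 b).le)
    rw [← mul_sum] at hg
    refine le_trans (le_of_eq ?_) hg
    have h1 : ∀ b ∈ (univ : Finset B), w b ^ (1 / N) = Real.exp (Real.log (w b) * (1 / N)) :=
      fun b _ => Real.rpow_def_of_pos (hw0 b) _
    rw [prod_congr rfl h1, ← Real.exp_sum, ← sum_mul]
    congr 1
    have h2 : ∀ b ∈ (univ : Finset B), Real.log (w b) =
        (if b ∈ F then Real.log (ρ z) - Real.log lam else 0) - Real.log (tau G (I b) z) -
          (((I b)ᶜ).card : ℝ) * Real.log (dg G y) := by
      intro b _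
      simp only [hw]
      split_ifs with hb
      · rw [hF b hb, compl_univ, card_empty, Real.log_mul (div_pos hrp (ht _)).ne'
          (one_div_pos.2 hlpos).ne', Real.log_div hrp.ne' (ht _).ne', one_div, Real.log_inv]
        push_cast; ring
      · rw [one_div, Real.log_inv, Real.log_mul (ht _).ne' (pow_pos hd0 _).ne', Real.log_pow]
        ring
    rw [sum_congr rfl h2, sum_sub_distrib, sum_sub_distrib, ← sum_mul, sum_ite_mem, univ_inter,
      sum_const, nsmul_eq_mul]
    have h3 : (F.card : ℝ) * Real.log (ρ z) = ∑ b, Real.log (tau G (I b) z) := by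
      simp only [hρ]
      rw [Real.log_prod fun b _ => (Real.rpow_pos_of_pos (ht _) _).ne', mul_sum]
      refine sum_congr rfl fun b _ => ?_
      rw [Real.log_rpow (ht _)]
      field_simp
    rw [mul_sub, h3]
    ring
  have hS := sum_le_sum (s := (univ : Finset U)) fun y _ =>
    sum_le_sum (s := (univ : Finset (ι → U))) fun z _ => hpt y z
  have hR : ∑ y : U, ∑ z : ι → U, (1 / N) * ∑ b, (∏ i, ad G (z i) y) *
      (if b ∈ F then ρ z / tau G univ z * (1 / lam)
        else 1 / (tau G (I b) z * dg G y ^ ((I b)ᶜ).card)) ≤ n ^ d * n := by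
    have h1 : ∀ b ∈ (univ : Finset B), ∑ y : U, ∑ z : ι → U, (∏ i, ad G (z i) y) *
        (if b ∈ F then ρ z / tau G univ z * (1 / lam)
          else 1 / (tau G (I b) z * dg G y ^ ((I b)ᶜ).card)) ≤ n ^ d * n := by
      intro b _
      by_cases hb : b ∈ F
      · simp only [if_pos hb]
        have h2 := sum_zero G hρ0
        have h3 : ∑ z, ρ z = lam * n ^ d := by rw [hlam]; field_simp
        rw [h3, ← hn] at h2
        have h4 : ∑ y : U, ∑ z : ι → U, (∏ i, ad G (z i) y) * (ρ z / tau G univ z * (1 / lam)) =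
            (∑ y : U, ∑ z : ι → U, (∏ i, ad G (z i) y) * (ρ z / tau G univ z)) * (1 / lam) := by
          rw [sum_mul]
          refine sum_congr rfl fun y _ => ?_
          rw [sum_mul]
          refine sum_congr rfl fun z _ => ?_
          ring
        rw [h4, mul_one_div, div_le_iff₀ hlpos]
        refine h2.trans (le_of_eq (by ring))
      · simp only [if_neg hb]
        exact sum_one G (I b)
    have h5 : ∑ y : U, ∑ z : ι → U, (1 / N) * ∑ b, (∏ i, ad G (z i) y) *
        (if b ∈ F then ρ z / tau G univ z * (1 / lam)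
          else 1 / (tau G (I b) z * dg G y ^ ((I b)ᶜ).card)) =
        (1 / N) * ∑ b, ∑ y : U, ∑ z : ι → U, (∏ i, ad G (z i) y) *
        (if b ∈ F then ρ z / tau G univ z * (1 / lam)
          else 1 / (tau G (I b) z * dg G y ^ ((I b)ᶜ).card)) := by
      have h7 : ∀ y ∈ (univ : Finset U), ∑ z : ι → U, (1 / N) * ∑ b, (∏ i, ad G (z i) y) *
          (if b ∈ F then ρ z / tau G univ z * (1 / lam)
            else 1 / (tau G (I b) z * dg G y ^ ((I b)ᶜ).card)) =
          (1 / N) * ∑ b, ∑ z : ι → U, (∏ i, ad G (z i) y) *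
          (if b ∈ F then ρ z / tau G univ z * (1 / lam)
            else 1 / (tau G (I b) z * dg G y ^ ((I b)ᶜ).card)) := by
        intro y _
        rw [← mul_sum, sum_comm]
      rw [sum_congr rfl h7, ← mul_sum, sum_comm]
    rw [h5]
    have h6 := sum_le_sum h1
    rw [sum_const, card_univ, nsmul_eq_mul, ← hN] at h6
    calc _ ≤ (1 / N) * (N * (n ^ d * n)) := mul_le_mul_of_nonneg_left h6 (by positivity)
      _ = _ := by field_simp
  have hL : ∑ y : U, n ^ d * (Real.exp (-(F.card : ℝ) * Real.log lam / N) * dg G y ^ (e / N)) ≤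
      ∑ y : U, ∑ z : ι → U, (∏ i, ad G (z i) y) *
        Real.exp ((-(F.card : ℝ) * Real.log lam - M * Real.log (dg G y)) / N) := by
    refine sum_le_sum fun y _ => ?_
    rw [← sum_mul]
    have h1 : ∑ z : ι → U, ∏ i, ad G (z i) y = n ^ d * dg G y ^ d := by
      have := Finset.prod_univ_sum (fun _ : ι => (univ : Finset U)) (fun _ u => ad G u y)
      rw [prod_const, card_univ, Fintype.piFinset_univ, ← hd] at this
      rw [← this, ← mul_pow]
      congr 1
      unfold dg
      rw [← hn]
      field_simp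
    rw [h1]
    have he0 : 0 < e / N := div_pos (lt_of_lt_of_le hN0 heN) hN0
    rcases eq_or_lt_of_le (hdg0 y) with h0 | h0
    · rw [← h0, Real.zero_rpow he0.ne', mul_zero, mul_zero]
      positivity
    · refine le_of_eq ?_
      rw [mul_assoc]
      congr 1
      rw [Real.rpow_def_of_pos h0, ← Real.rpow_natCast, Real.rpow_def_of_pos h0, ← Real.exp_add,
        ← Real.exp_add]
      congr 1
      have : M = N * d - e := by linarith
      rw [this]
      field_simp
      ring
  have hT := (hL.trans hS).trans hR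
  rw [← mul_sum, ← mul_sum] at hT
  have hT2 : Real.exp (-(F.card : ℝ) * Real.log lam / N) * ((∑ y, dg G y ^ (e / N)) / n) ≤ 1 := by
    rw [← mul_div_assoc, div_le_one hc]
    exact le_of_mul_le_mul_left hT (by positivity)
  have hJ : edgeDensity G ^ (e / N) ≤ (∑ y, dg G y ^ (e / N)) / n := by
    have h := Real.rpow_arith_mean_le_arith_mean_rpow (univ : Finset U)
      (fun _ => 1 / n) (fun y => dg G y) (fun _ _ => by positivity)
      (by rw [sum_const, card_univ, nsmul_eq_mul, ← hn]; field_simp)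
      (fun y _ => hdg0 y) ((one_le_div hN0).2 heN)
    rw [← mul_sum, ← mul_sum] at h
    rw [hpe, div_eq_inv_mul, div_eq_inv_mul _ n, ← one_div, ← hn]
    exact h
  have hA : edgeDensity G ^ (e / N) ≤ Real.exp ((F.card : ℝ) * Real.log lam / N) := by
    refine hJ.trans ?_
    have h1 : Real.exp (-(F.card : ℝ) * Real.log lam / N) =
        (Real.exp ((F.card : ℝ) * Real.log lam / N))⁻¹ := by
      rw [← Real.exp_neg]; congr 1; ring
    rw [h1, inv_mul_le_iff₀ (Real.exp_pos _), mul_one] at hT2
    exact hT2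
  have hB := pow_le_pow_left₀ (Real.rpow_nonneg hp0 _) hA (Fintype.card B)
  have h1 : (edgeDensity G ^ (e / N)) ^ (Fintype.card B) = edgeDensity G ^ (∑ b, (I b).card) := by
    rw [← Real.rpow_natCast, ← Real.rpow_mul hp0, ← hN, div_mul_cancel₀ _ hN0.ne',
      ← Real.rpow_natCast]
    congr 1
    rw [he]; push_cast; rfl
  have h2 : Real.exp ((F.card : ℝ) * Real.log lam / N) ^ (Fintype.card B) = lam ^ F.card := by
    rw [← Real.exp_nat_mul, ← hN]
    have : N * ((F.card : ℝ) * Real.log lam / N) = (F.card : ℝ) * Real.log lam := by field_simp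
    rw [this, Real.exp_nat_mul, Real.exp_log hlpos]
  rw [h1, h2] at hB
  exact hB

end Hol

end Vale.Agent.P050.H19
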