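import Vale.Agent.P050.H19.Pow
import Vale.Agent.P050.H19.Hol

/-!
Bipartite graphs one side of which is divided into classes, such that each vertex of the other side
sees at most one vertex of each class, and sufficiently many see a vertex of every class.
-/

namespace Vale.Agent.P050.H19

open Finset

section

variable {ι B U : Type} [Fintype ι] [DecidableEq ι] [Fintype B] [Fintype U] {k : ι → ℕ}

/-- the copies `(i, c i)` of the elements `i` of `S` -/
def lift (S : Finset ι) (c : ∀ i, Fin (k i)) : Finset (Σ i, Fin (k i)) :=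
  S.map ⟨fun i => ⟨i, c i⟩, fun _ _ h => (Sigma.mk.inj h).1⟩

/-- translation of the copies -/
def shift [∀ i, NeZero (k i)] (g : ∀ i, Fin (k i)) : Equiv.Perm (Σ i, Fin (k i)) :=
  Equiv.sigmaCongrRight fun i => Equiv.addRight (g i)

lemma lift_shift [∀ i, NeZero (k i)] (S : Finset ι) (c g : ∀ i, Fin (k i)) :
    (lift S c).map (shift g).toEmbedding = lift S (c + g) := by
  unfold lift
  rw [Finset.map_map]
  rfl

lemma tau_eq (G : SimpleGraph U) (S : Finset ι) (z : ι → U) : tau G S z = q G S z := by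
  classical
  unfold tau q ad
  congr 1
  rw [← sum_boole]
  refine sum_congr rfl fun y _ => ?_
  rw [prod_ite_zero, prod_const_one]
  by_cases h : ∀ i ∈ S, G.Adj (z i) y
  · rw [if_pos h, if_pos h]
  · rw [if_neg h, if_neg h]

lemma q_lift (G : SimpleGraph U) (S : Finset ι) (c : ∀ i, Fin (k i))
    (x : (Σ i, Fin (k i)) → U) : q G (lift S c) x = tau G S fun i => x ⟨i, c i⟩ := by
  classical
  rw [tau_eq]
  unfold q lift
  congr 3
  ext y
  simp
  exact Iff.rfl

lemma avg_equiv {α β : Type} [Fintype α] [Fintype β] (e : α ≃ β) (f : β → ℝ) :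
    avg (fun x => f (e x)) = avg f := by
  unfold avg
  rw [Equiv.sum_comp e f, Fintype.card_congr e]

lemma mean_eq {A : Type} [Fintype A] [DecidableEq A] (f : (A → U) → ℝ) : mean f = avg f := by
  unfold mean avg
  rw [Fintype.card_fun]
  push_cast
  rfl

lemma avg_base [Nonempty U] [∀ i, NeZero (k i)] (φ : (ι → U) → ℝ) :
    avg (fun y : ∀ a, Fin (k a) → U => φ fun a => y a 0) = avg φ := by
  have hY : (0 : ℝ) < Fintype.card (∀ a, Fin (k a) → U) := by exact_mod_cast Fintype.card_pos
  have hX : (0 : ℝ) < Fintype.card (ι → U) := by exact_mod_cast Fintype.card_pos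
  have e : ∑ p : (∀ a, Fin (k a) → U) × (ι → U), φ (fun a => p.1 a 0) =
      ∑ p : (∀ a, Fin (k a) → U) × (ι → U), φ p.2 := by
    refine Fintype.sum_equiv
      ⟨fun p => (fun a j => if j = 0 then p.2 a else p.1 a j, fun a => p.1 a 0),
        fun p => (fun a j => if j = 0 then p.2 a else p.1 a j, fun a => p.1 a 0),
        fun p => ?_, fun p => ?_⟩ _ _ fun p => rfl
    · ext1
      · funext a j
        by_cases hj : j = 0 <;> simp [hj]
      · funext a; simp
    · ext1
      · funext a j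
        by_cases hj : j = 0 <;> simp [hj]
      · funext a; simp
  rw [Fintype.sum_prod_type, Fintype.sum_prod_type] at e
  simp only [sum_const, card_univ, nsmul_eq_mul] at e
  rw [← mul_sum] at e
  unfold avg
  rw [div_eq_div_iff hY.ne' hX.ne']
  linarith

lemma pow_le_avg [Nonempty U] [∀ i, NeZero (k i)] {φ : (ι → U) → ℝ} (hφ : ∀ u, 0 ≤ φ u) :
    mean φ ^ (∏ i, k i) ≤
      mean fun x : (Σ i, Fin (k i)) → U => ∏ g : ∀ i, Fin (k i), φ fun i => x ⟨i, g i⟩ := by
  have h := PT_all (k := k) hφ univ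
  have h1 : ∀ y : ∀ a, Fin (k a) → U, PT φ ∅ y = φ fun a => y a 0 := by
    intro y
    unfold PT
    have : (Fintype.piFinset fun a => if a ∈ (∅ : Finset ι) then (univ : Finset (Fin (k a)))
        else {0}) = {fun _ => 0} := by
      simp only [notMem_empty, if_false]
      exact Fintype.piFinset_singleton _
    rw [this, prod_singleton]
  have h2 : ∀ y : ∀ a, Fin (k a) → U, PT φ univ y =
      ∏ g : ∀ i, Fin (k i), φ fun a => y a (g a) := by
    intro y
    unfold PT
    simp only [mem_univ, if_true, Fintype.piFinset_univ]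
  simp only [h1, h2] at h
  rw [avg_base φ] at h
  rw [mean_eq, mean_eq]
  refine h.trans (le_of_eq ?_)
  exact (avg_equiv (Equiv.piCurry fun (i : ι) (_ : Fin (k i)) => U)
    (fun y : ∀ a, Fin (k a) → U => ∏ g : ∀ i, Fin (k i), φ fun a => y a (g a))).symm

/-- Step A -/
lemma stepA [Nonempty U] [∀ i, NeZero (k i)] (G : SimpleGraph U) (I : B → Finset ι)
    (c : B → ∀ i, Fin (k i)) :
    (mean fun z : ι → U => ∏ b, tau G (I b) z ^ (1 / ((∏ i, k i : ℕ) : ℝ))) ^ (∏ i, k i) ≤
      homDensity (inc fun b => lift (I b) (c b)) G := by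
  classical
  have hcard : Fintype.card (∀ i, Fin (k i)) = ∏ i, k i := by
    rw [Fintype.card_pi]; simp
  have hK : (0 : ℝ) < ((∏ i, k i : ℕ) : ℝ) := by
    rw [← hcard]; exact_mod_cast Fintype.card_pos
  refine (pow_le_avg (fun u => prod_nonneg fun b _ => Real.rpow_nonneg (tau_nonneg G _ u) _)).trans ?_
  rw [hom_eq]
  set f : ((Σ i, Fin (k i)) → U) → ℝ := fun x => ∏ b, q G (lift (I b) (c b)) x with hf
  have h1 : ∀ g : ∀ i, Fin (k i), mean (fun x => ∏ b, q G (lift (I b) (c b + g)) x) = mean f := by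
    intro g
    rw [← mean_comp f (shift g)]
    simp only [hf, q_comp, lift_shift]
  have h2 : mean f = mean fun x : (Σ i, Fin (k i)) → U => ∑ g : ∀ i, Fin (k i),
      (1 / ((∏ i, k i : ℕ) : ℝ)) * ∏ b, q G (lift (I b) (c b + g)) x := by
    have h3 : ∑ g : ∀ i, Fin (k i), (1 / ((∏ i, k i : ℕ) : ℝ)) *
        mean (fun x => ∏ b, q G (lift (I b) (c b + g)) x) = mean f := by
      simp only [h1]
      rw [sum_const, card_univ, hcard, nsmul_eq_mul]
      field_simp
    rw [← h3]
    unfold mean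
    rw [sum_comm, sum_div]
    refine sum_congr rfl fun g _ => ?_
    rw [← mul_sum, mul_div_assoc]
  rw [h2]
  refine mean_mono fun x => ?_
  have h4 := Real.geom_mean_le_arith_mean_weighted (univ : Finset (∀ i, Fin (k i)))
    (fun _ => 1 / ((∏ i, k i : ℕ) : ℝ))
    (fun g => ∏ b, q G (lift (I b) (c b + g)) x) (fun _ _ => by positivity)
    (by rw [sum_const, card_univ, hcard, nsmul_eq_mul]; field_simp)
    (fun g _ => prod_nonneg fun b _ => q_nonneg G _ x)
  refine le_trans (le_of_eq ?_) h4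
  have h5 : ∀ g : ∀ i, Fin (k i), (∏ b, q G (lift (I b) (c b + g)) x) ^
      (1 / ((∏ i, k i : ℕ) : ℝ)) = ∏ b, q G (lift (I b) (c b + g)) x ^
      (1 / ((∏ i, k i : ℕ) : ℝ)) := fun g =>
    (Real.finsetProd_rpow _ _ (fun b _ => q_nonneg G _ x) _).symm
  simp only [h5]
  rw [prod_comm, prod_comm (s := (univ : Finset (∀ i, Fin (k i))))]
  refine prod_congr rfl fun b _ => ?_
  have h6 := Equiv.prod_comp (Equiv.addLeft (c b)) fun g : ∀ i, Fin (k i) =>
    q G (lift (I b) g) x ^ (1 / ((∏ i, k i : ℕ) : ℝ))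
  simp only [Equiv.coe_addLeft] at h6
  rw [h6]
  simp only [q_lift]

/-- **Conlon-Fox-Sudakov for classes.** -/
theorem classes [Nonempty U] [∀ i, NeZero (k i)] (G : SimpleGraph U) (I : B → Finset ι)
    (c : B → ∀ i, Fin (k i)) (hI : ∀ b, (I b).Nonempty)
    (hfull : ∏ i, k i ≤ Nat.card {b // I b = univ}) :
    edgeDensity G ^ (∑ b, (I b).card) ≤ homDensity (inc fun b => lift (I b) (c b)) G := by
  classical
  have hK : 0 < ∏ i, k i := prod_pos fun i _ => Nat.pos_of_ne_zero (NeZero.ne (k i))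
  have h1 : ∏ i, k i ≤ (univ.filter fun b => I b = univ).card := by
    rw [Nat.card_eq_fintype_card, Fintype.card_subtype] at hfull
    exact hfull
  obtain ⟨F, hF, hFc⟩ := exists_subset_card_eq h1
  have h2 := hoelder G I hI F (fun b hb => (mem_filter.1 (hF hb)).2)
    (card_pos.1 (by rw [hFc]; exact hK))
  rw [hFc] at h2
  exact h2.trans (stepA G I c)

end

end Vale.Agent.P050.H19
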