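import Vale.Agent.P050.H19.Cls

/-!
The theorem on classes for bipartite graphs given by their adjacency.
-/

namespace Vale.Agent.P050.H19

open Finset

section

variable {A B U : Type} [Fintype A] [DecidableEq A] [Fintype B] [Fintype U]

lemma edges_inc (S : B → Finset A) : Nat.card (inc S).edgeSet = ∑ b, (S b).card := by
  classical
  have e : (Σ b, {a // a ∈ S b}) ≃ (inc S).edgeSet := by
    refine Equiv.ofBijective (fun p => ⟨s(Sum.inl p.2.1, Sum.inr p.1), p.2.2⟩) ⟨?_, ?_⟩
    · rintro ⟨b, a, ha⟩ ⟨b', a', ha'⟩ h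
      have h1 := congrArg Subtype.val h
      simp only [Sym2.eq_iff, Sum.inl.injEq, Sum.inr.injEq, reduceCtorEq, and_self, or_false] at h1
      obtain ⟨rfl, rfl⟩ := h1
      rfl
    · rintro ⟨e, he⟩
      induction e using Sym2.ind with
      | _ u v =>
        rcases u with a | b <;> rcases v with a' | b'
        · exact (he : False).elim
        · exact ⟨⟨b', a, he⟩, rfl⟩
        · exact ⟨⟨b, a', he⟩, Subtype.ext Sym2.eq_swap⟩
        · exact (he : False).elim
  rw [← Nat.card_congr e, Nat.card_eq_fintype_card, Fintype.card_sigma]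
  exact sum_congr rfl fun b _ => Fintype.card_coe _

lemma hom_iso {V W : Type} {H : SimpleGraph V} {H' : SimpleGraph W} (e : H ≃g H')
    (G : SimpleGraph U) : homDensity H G = homDensity H' G := by
  unfold homDensity
  have h : (H →g G) ≃ (H' →g G) :=
    ⟨fun f => f.comp e.symm.toHom, fun f => f.comp e.toHom, fun f => by ext v; simp,
      fun f => by ext v; simp⟩
  rw [Nat.card_congr h, Nat.card_congr e.toEquiv]

lemma q_empty [Nonempty U] (G : SimpleGraph U) (x : A → U) : q G ∅ x = 1 := by
  classical
  have hc : (Fintype.card U : ℝ) ≠ 0 := by exact_mod_cast Fintype.card_ne_zero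
  unfold q
  simp [hc]

/-- isolated vertices may be omitted -/
lemma hom_sub [Nonempty U] (G : SimpleGraph U) (S : B → Finset A) [DecidablePred fun b => (S b).Nonempty] :
    homDensity (inc S) G = homDensity (inc fun b : {b // (S b).Nonempty} => S b.1) G := by
  classical
  rw [hom_eq, hom_eq]
  congr 1
  ext x
  rw [← Finset.prod_filter_mul_prod_filter_not univ (fun b => (S b).Nonempty)]
  have h1 : ∏ b ∈ univ.filter (fun b => ¬ (S b).Nonempty), q G (S b) x = 1 := by
    refine prod_eq_one fun b hb => ?_
    rw [not_nonempty_iff_eq_empty.1 (mem_filter.1 hb).2, q_empty]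
  rw [h1, mul_one]
  exact (Finset.prod_subtype (univ.filter fun b => (S b).Nonempty) (by simp) fun b => q G (S b) x)



lemma hom_one [Nonempty U] (G : SimpleGraph U) (S : B → Finset A) (h : ∀ b, S b = ∅) :
    homDensity (inc S) G = 1 := by
  have hc : (Fintype.card U : ℝ) ≠ 0 := by exact_mod_cast Fintype.card_ne_zero
  rw [hom_eq]
  simp only [h, q_empty, prod_const_one]
  unfold mean
  rw [sum_const, card_univ, Fintype.card_fun, nsmul_eq_mul]
  push_cast
  field_simp

end

lemma mem_lift {ι : Type} [Fintype ι] [DecidableEq ι] {k : ι → ℕ} (S : Finset ι)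
    (c : ∀ i, Fin (k i)) (i : ι) (j : Fin (k i)) :
    (⟨i, j⟩ : Σ i, Fin (k i)) ∈ lift S c ↔ i ∈ S ∧ c i = j := by
  unfold lift
  simp only [mem_map, Function.Embedding.coeFn_mk]
  constructor
  · rintro ⟨i', hi', h⟩
    obtain ⟨rfl, h⟩ := Sigma.mk.inj h
    exact ⟨hi', eq_of_heq h⟩
  · rintro ⟨hi, rfl⟩
    exact ⟨i, hi, rfl⟩

/-- the same with isolated vertices and the number of edges -/
lemma classes_all {ι B U : Type} [Fintype ι] [DecidableEq ι] [Fintype B] [Fintype U] [Nonempty U]
    {k : ι → ℕ} [∀ i, NeZero (k i)] (G : SimpleGraph U) (I : B → Finset ι)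
    (c : B → ∀ i, Fin (k i)) (hfull : ∏ i, k i ≤ Nat.card {b // I b = univ}) :
    edgeDensity G ^ Nat.card (inc fun b => lift (I b) (c b)).edgeSet ≤
      homDensity (inc fun b => lift (I b) (c b)) G := by
  classical
  have hcard : ∀ b, (lift (I b) (c b)).card = (I b).card := fun b => card_map _
  rw [edges_inc]
  simp only [hcard]
  by_cases hι : Nonempty ι
  · have hne : ∀ b, (lift (I b) (c b)).Nonempty ↔ (I b).Nonempty := fun b => map_nonempty
    rw [hom_sub]
    have h1 := classes G (fun b : {b // (lift (I b) (c b)).Nonempty} => I b.1) (fun b => c b.1)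
      (fun b => (hne b.1).1 b.2) (by
        refine hfull.trans ?_
        refine Nat.card_le_card_of_injective
          (fun p : {b // I b = univ} => (⟨⟨p.1, (hne p.1).2 (by rw [p.2]; exact univ_nonempty)⟩, p.2⟩ :
            {b : {b // (lift (I b) (c b)).Nonempty} // I b.1 = univ})) ?_
        intro p p' h
        have := congrArg (fun x => x.1.1) h
        exact Subtype.ext this)
    refine le_trans (le_of_eq ?_) h1
    congr 1
    rw [← Finset.sum_filter_add_sum_filter_not univ fun b => (lift (I b) (c b)).Nonempty]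
    have h2 : ∑ b ∈ univ.filter (fun b => ¬ (lift (I b) (c b)).Nonempty), (I b).card = 0 := by
      refine sum_eq_zero fun b hb => ?_
      have := (mem_filter.1 hb).2
      rw [hne, not_nonempty_iff_eq_empty] at this
      rw [this, card_empty]
    rw [h2, add_zero]
    exact (Finset.sum_subtype (univ.filter fun b => (lift (I b) (c b)).Nonempty) (by simp)
      fun b => (I b).card)
  · have hI : ∀ b, I b = ∅ := by
      intro b
      rw [not_nonempty_iff] at hι
      exact Finset.eq_empty_of_isEmpty _
    rw [hom_one G _ fun b => by rw [hI b]; rfl]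
    simp [hI]

/-- **The theorem of Conlon, Fox and Sudakov for classes.** Let `H` be a bipartite graph with the
parts `A` and `B`, let `A` be divided into nonempty classes (the fibres of `cls`), let each vertex
of `B` have at most one neighbour in each class, and let the number of the vertices of `B` which
have a neighbour in every class be at least the product of the sizes of the classes. Then `H`
satisfies Sidorenko's inequality. -/
theorem cfs {A B ι : Type} [Finite A] [Finite B] [Fintype ι] (H : SimpleGraph (A ⊕ B))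
    (cls : A → ι) (hs : Function.Surjective cls)
    (hA : ∀ a a', ¬ H.Adj (Sum.inl a) (Sum.inl a'))
    (hB : ∀ b b', ¬ H.Adj (Sum.inr b) (Sum.inr b'))
    (h1 : ∀ b a a', H.Adj (Sum.inl a) (Sum.inr b) → H.Adj (Sum.inl a') (Sum.inr b) →
      cls a = cls a' → a = a')
    (h2 : ∏ i, Nat.card {a // cls a = i} ≤
      Nat.card {b // ∀ i, ∃ a, cls a = i ∧ H.Adj (Sum.inl a) (Sum.inr b)})
    (U : Type) [Finite U] [Nonempty U] (G : SimpleGraph U) :
    edgeDensity G ^ Nat.card H.edgeSet ≤ homDensity H G := by
  classical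
  haveI := Fintype.ofFinite A
  haveI := Fintype.ofFinite B
  haveI := Fintype.ofFinite U
  set k : ι → ℕ := fun i => Nat.card {a // cls a = i} with hk
  have hpos : ∀ i, 0 < k i := by
    intro i
    obtain ⟨a, ha⟩ := hs i
    haveI : Nonempty {a // cls a = i} := ⟨⟨a, ha⟩⟩
    exact Nat.card_pos
  haveI : ∀ i, NeZero (k i) := fun i => ⟨(hpos i).ne'⟩
  set ε : A ≃ Σ i, Fin (k i) := (Equiv.sigmaFiberEquiv cls).symm.trans
    (Equiv.sigmaCongrRight fun i => Finite.equivFin {a // cls a = i}) with hε
  have hεa : ∀ a, ε a = ⟨cls a, Finite.equivFin {a' // cls a' = cls a} ⟨a, rfl⟩⟩ := fun a => rfl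
  set I : B → Finset ι := fun b =>
    univ.filter fun i => ∃ a, cls a = i ∧ H.Adj (Sum.inl a) (Sum.inr b) with hI
  set c : B → ∀ i, Fin (k i) := fun b i =>
    if h : ∃ a, cls a = i ∧ H.Adj (Sum.inl a) (Sum.inr b) then
      Finite.equivFin {a' // cls a' = i} ⟨h.choose, h.choose_spec.1⟩ else 0 with hc
  have hmem : ∀ a b, ε a ∈ lift (I b) (c b) ↔ H.Adj (Sum.inl a) (Sum.inr b) := by
    intro a b
    rw [hεa, mem_lift]
    constructor
    · rintro ⟨h3, h4⟩
      simp only [hI, mem_filter, mem_univ, true_and] at h3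
      simp only [hc, dif_pos h3] at h4
      have h5 := (Finite.equivFin {a' // cls a' = cls a}).injective h4
      have h6 := congrArg Subtype.val h5
      simp only at h6
      have h7 := h3.choose_spec.2
      rw [h6] at h7
      exact h7
    · intro h
      have h3 : ∃ a', cls a' = cls a ∧ H.Adj (Sum.inl a') (Sum.inr b) := ⟨a, rfl, h⟩
      refine ⟨by simp only [hI, mem_filter, mem_univ, true_and]; exact h3, ?_⟩
      simp only [hc, dif_pos h3]
      congr 1
      exact Subtype.ext (h1 b _ _ h3.choose_spec.2 h h3.choose_spec.1)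
  have e : H ≃g inc fun b => lift (I b) (c b) := by
    refine ⟨Equiv.sumCongr ε (Equiv.refl B), ?_⟩
    rintro (a | b) (a' | b')
    · exact ⟨fun h => h.elim, fun h => (hA _ _ h).elim⟩
    · exact hmem a b'
    · exact (hmem a' b).trans ⟨fun h => h.symm, fun h => h.symm⟩
    · exact ⟨fun h => h.elim, fun h => (hB _ _ h).elim⟩
  rw [hom_iso e, Nat.card_congr e.mapEdgeSet]
  refine classes_all G I c ?_
  refine h2.trans (le_of_eq (Nat.card_congr (Equiv.subtypeEquivRight fun b => ?_)))
  simp only [hI, Finset.ext_iff, mem_filter, mem_univ, true_and, iff_true]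

end Vale.Agent.P050.H19
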