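import Vale.Agent.P050.TDefs

/-!
Averages over copies: a bipartite graph whose right vertices are attached to an orbit of sets.
-/

namespace Vale.Agent.P050.H19

open Finset

/-- the bipartite graph with parts `A`, `B` in which `b` is adjacent to the elements of `S b` -/
def inc {A B : Type} (S : B → Finset A) : SimpleGraph (A ⊕ B) where
  Adj u v := match u, v with
    | Sum.inl a, Sum.inr b => a ∈ S b
    | Sum.inr b, Sum.inl a => a ∈ S b
    | _, _ => False
  symm := ⟨by rintro (a | b) (a' | b') h <;> exact h⟩
  loopless := ⟨by rintro (a | b) h <;> exact h⟩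

variable {A B C U : Type} [Fintype A] [DecidableEq A] [Fintype B] [Fintype C] [Fintype U]

open Classical in
/-- relative number of common neighbours of the `x a`, `a ∈ S` -/
noncomputable def q (G : SimpleGraph U) (S : Finset A) (x : A → U) : ℝ :=
  ((univ.filter fun y => ∀ a ∈ S, G.Adj (x a) y).card : ℝ) / (Fintype.card U : ℝ)

/-- mean over all maps -/
noncomputable def mean (f : (A → U) → ℝ) : ℝ :=
  (∑ x, f x) / (Fintype.card U : ℝ) ^ Fintype.card A

lemma q_nonneg (G : SimpleGraph U) (S : Finset A) (x : A → U) : 0 ≤ q G S x := by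
  unfold q; positivity

lemma hom_eq (G : SimpleGraph U) (S : B → Finset A) :
    homDensity (inc S) G = mean fun x => ∏ b, q G (S b) x := by
  classical
  have h1 : Nat.card (inc S →g G) =
      ∑ x : A → U, ∏ b, (univ.filter fun y => ∀ a ∈ S b, G.Adj (x a) y).card := by
    have e : (inc S →g G) ≃ Σ x : A → U,
        {z : B → U // z ∈ Fintype.piFinset fun b => univ.filter fun y => ∀ a ∈ S b, G.Adj (x a) y} := by
      refine ⟨fun f => ⟨fun a => f (Sum.inl a), fun b => f (Sum.inr b), ?_⟩,
        fun p => ⟨Sum.elim p.1 p.2.1, ?_⟩, ?_, ?_⟩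
      · rw [Fintype.mem_piFinset]
        intro b
        simp only [mem_filter, mem_univ, true_and]
        intro a ha
        exact f.map_rel (show (inc S).Adj (Sum.inl a) (Sum.inr b) from ha)
      · rintro (a | b) (a' | b') h
        · exact h.elim
        · have := p.2.2
          rw [Fintype.mem_piFinset] at this
          have := this b'
          simp only [mem_filter, mem_univ, true_and] at this
          exact this a h
        · have := p.2.2
          rw [Fintype.mem_piFinset] at this
          have := this b
          simp only [mem_filter, mem_univ, true_and] at this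
          exact (this a' h).symm
        · exact h.elim
      · intro f
        ext v
        cases v <;> rfl
      · rintro ⟨x, z, hz⟩
        rfl
    rw [Nat.card_congr e, Nat.card_eq_fintype_card, Fintype.card_sigma]
    refine sum_congr rfl fun x _ => ?_
    rw [Fintype.card_coe, Fintype.card_piFinset]
  unfold homDensity mean q
  rw [h1, Nat.card_eq_fintype_card, Nat.card_eq_fintype_card, Fintype.card_sum]
  push_cast
  simp only [prod_div_distrib, prod_const, card_univ]
  rw [← Finset.sum_div, div_div, pow_add, mul_comm ((Fintype.card U : ℝ) ^ Fintype.card A)]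

lemma mean_comp (f : (A → U) → ℝ) (σ : Equiv.Perm A) :
    mean (fun x => f (x ∘ σ)) = mean f := by
  unfold mean
  congr 1
  exact Equiv.sum_comp (σ.symm.arrowCongr (Equiv.refl U)) f

lemma q_comp (G : SimpleGraph U) (S : Finset A) (x : A → U) (σ : Equiv.Perm A) :
    q G S (x ∘ σ) = q G (S.map σ.toEmbedding) x := by
  unfold q
  congr 3
  ext y
  simp only [Function.comp, mem_filter, mem_univ, true_and, mem_map, Equiv.coe_toEmbedding,
    forall_exists_index, and_imp, forall_apply_eq_imp_iff₂]

lemma mean_mono [Nonempty U] {f g : (A → U) → ℝ} (h : ∀ x, f x ≤ g x) : mean f ≤ mean g := by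
  unfold mean
  gcongr
  exact h _

lemma jensen [Nonempty U] {f : (A → U) → ℝ} (hf : ∀ x, 0 ≤ f x) {r : ℝ} (hr : 1 ≤ r) :
    (mean f) ^ r ≤ mean fun x => f x ^ r := by
  have hc : (0 : ℝ) < (Fintype.card U : ℝ) ^ Fintype.card A := by
    have : 0 < Fintype.card U := Fintype.card_pos
    positivity
  have h := Real.rpow_arith_mean_le_arith_mean_rpow (univ : Finset (A → U))
    (fun _ => 1 / (Fintype.card U : ℝ) ^ Fintype.card A) f (fun _ _ => by positivity)
    (by rw [sum_const, card_univ, Fintype.card_fun, nsmul_eq_mul]; push_cast; field_simp)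
    (fun x _ => hf x) hr
  unfold mean
  rw [← mul_sum, ← mul_sum] at h
  rw [div_eq_inv_mul, div_eq_inv_mul, ← one_div]
  exact h

/-- Averaging: if the product over the permuted copies of `T` does not depend on `T` and is the
`n`-th power of the product over `S`, then `t(T) ≥ t(S) ^ (n / |I|)`. -/
theorem core [Nonempty U] {I : Type} [Fintype I] [Nonempty I] (G : SimpleGraph U)
    (S : B → Finset A) (T : C → Finset A) (σ : I → Equiv.Perm A) (n : ℕ)
    (hn : Fintype.card I ≤ n)
    (h : ∀ x : A → U, ∏ i, ∏ c, q G ((T c).map (σ i).toEmbedding) x =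
      (∏ b, q G (S b) x) ^ n) :
    homDensity (inc S) G ^ ((n : ℝ) / Fintype.card I) ≤ homDensity (inc T) G := by
  rw [hom_eq, hom_eq]
  have hI : (0 : ℝ) < Fintype.card I := by exact_mod_cast Fintype.card_pos
  have hr : 1 ≤ (n : ℝ) / Fintype.card I := by
    rw [le_div_iff₀ hI, one_mul]; exact_mod_cast hn
  refine (jensen (fun x => prod_nonneg fun b _ => q_nonneg G _ x) hr).trans ?_
  have h1 : ∀ i, mean (fun x => ∏ c, q G (T c) x) =
      mean fun x : A → U => ∏ c, q G ((T c).map (σ i).toEmbedding) x := by
    intro i
    rw [← mean_comp _ (σ i)]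
    simp only [q_comp]
  have h2 : mean (fun x => ∏ c, q G (T c) x) =
      mean fun x : A → U => ∑ i : I, (1 / (Fintype.card I : ℝ)) *
        ∏ c, q G ((T c).map (σ i).toEmbedding) x := by
    have : ∀ i ∈ (univ : Finset I), (1 / (Fintype.card I : ℝ)) * mean (fun x => ∏ c, q G (T c) x) =
        (1 / (Fintype.card I : ℝ)) *
          mean fun x : A → U => ∏ c, q G ((T c).map (σ i).toEmbedding) x := by
      intro i _
      rw [← h1 i]
    have h3 := sum_congr (rfl : (univ : Finset I) = univ) this
    rw [sum_const, card_univ, nsmul_eq_mul, ← mul_assoc, mul_one_div, div_self hI.ne', one_mul] at h3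
    rw [h3]
    unfold mean
    rw [sum_comm, sum_div]
    refine sum_congr rfl fun i _ => ?_
    rw [← mul_sum, mul_div_assoc]
  rw [h2]
  refine mean_mono fun x => ?_
  have h4 := Real.geom_mean_le_arith_mean_weighted (univ : Finset I)
    (fun _ => 1 / (Fintype.card I : ℝ))
    (fun i => ∏ c, q G ((T c).map (σ i).toEmbedding) x) (fun _ _ => by positivity)
    (by rw [sum_const, card_univ, nsmul_eq_mul]; field_simp)
    (fun i _ => prod_nonneg fun c _ => q_nonneg G _ x)
  refine le_trans (le_of_eq ?_) h4
  rw [Real.finsetProd_rpow _ _ (fun i _ => prod_nonneg fun c _ => q_nonneg G _ x), h x,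
    ← Real.rpow_natCast, ← Real.rpow_mul (prod_nonneg fun b _ => q_nonneg G _ x), mul_one_div]

end Vale.Agent.P050.H19
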