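import Vale.Agent.P050.H19.Orb

/-!
Copies of all coordinates.
-/

namespace Vale.Agent.P050.H19

open Finset

/-- average -/
noncomputable def avg {α : Type} [Fintype α] (f : α → ℝ) : ℝ := (∑ x, f x) / Fintype.card α

lemma avg_jensen {α : Type} [Fintype α] [Nonempty α] {f : α → ℝ} (hf : ∀ x, 0 ≤ f x) (n : ℕ) :
    avg f ^ n ≤ avg fun x => f x ^ n := by
  have hc : (0 : ℝ) < Fintype.card α := by exact_mod_cast Fintype.card_pos
  have h := inner_le_aux (f := f) hf n
  exact h
where
  inner_le_aux {f : α → ℝ} (hf : ∀ x, 0 ≤ f x) (n : ℕ) :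
      avg f ^ n ≤ avg fun x => f x ^ n := by
    have hc : (0 : ℝ) < Fintype.card α := by exact_mod_cast Fintype.card_pos
    have h := Real.pow_arith_mean_le_arith_mean_pow (univ : Finset α)
      (fun _ => 1 / (Fintype.card α : ℝ)) f (fun _ _ => by positivity)
      (by rw [sum_const, card_univ, nsmul_eq_mul]; field_simp) (fun x _ => hf x) n
    unfold avg
    rw [← mul_sum, ← mul_sum] at h
    rw [div_eq_inv_mul, div_eq_inv_mul, ← one_div]
    exact h

lemma avg_mono {α : Type} [Fintype α] {f g : α → ℝ} (h : ∀ x, f x ≤ g x) : avg f ≤ avg g := by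
  unfold avg
  gcongr
  exact h _

lemma avg_pi {U : Type} [Fintype U] (n : ℕ) (h : U → ℝ) :
    avg (fun ξ : Fin n → U => ∏ j, h (ξ j)) = avg h ^ n := by
  unfold avg
  rw [div_pow, Fintype.card_fun, Fintype.card_fin]
  push_cast
  congr 1
  have := Finset.prod_univ_sum (fun _ : Fin n => (univ : Finset U)) (fun _ u => h u)
  rw [prod_const, card_univ, Fintype.card_fin, Fintype.piFinset_univ] at this
  exact this.symm

lemma avg_eval {U : Type} [Fintype U] [Nonempty U] (n : ℕ) (i : Fin n) (h : U → ℝ) :
    avg (fun ξ : Fin n → U => h (ξ i)) = avg h := by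
  have hc : (0 : ℝ) < Fintype.card U := by exact_mod_cast Fintype.card_pos
  have h1 : ∀ ξ : Fin n → U, h (ξ i) = ∏ j, (if j = i then h (ξ j) else 1) := by
    intro ξ
    rw [prod_ite_eq' univ i (fun j => h (ξ j)), if_pos (mem_univ _)]
  unfold avg
  simp only [h1]
  have := Finset.prod_univ_sum (fun _ : Fin n => (univ : Finset U))
    (fun j u => if j = i then h u else (1 : ℝ))
  rw [Fintype.piFinset_univ] at this
  rw [← this]
  have h2 : ∀ j : Fin n, (∑ u : U, if j = i then h u else (1 : ℝ)) =
      (if j = i then (∑ u, h u) / Fintype.card U else 1) * Fintype.card U := by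
    intro j
    by_cases hj : j = i
    · simp only [hj, if_true]; field_simp
    · simp only [hj, if_false, sum_const, card_univ, nsmul_eq_mul, mul_one, one_mul]
  rw [prod_congr rfl fun j _ => h2 j, prod_mul_distrib, prod_const, card_univ, Fintype.card_fin,
    Fintype.card_fun, Fintype.card_fin, prod_ite_eq' univ i, if_pos (mem_univ _)]
  push_cast
  field_simp

lemma avg_update {A : Type} [Fintype A] [DecidableEq A] {β : A → Type} [∀ a, Fintype (β a)]
    [∀ a, Nonempty (β a)] (a : A) (F : (∀ a, β a) → ℝ) :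
    avg (fun y : ∀ a, β a => avg fun ξ : β a => F (Function.update y a ξ)) = avg F := by
  unfold avg
  have hc : (0 : ℝ) < Fintype.card (β a) := by exact_mod_cast Fintype.card_pos
  rw [← sum_div]
  have h : ∑ y : ∀ a, β a, ∑ ξ : β a, F (Function.update y a ξ) =
      Fintype.card (β a) * ∑ y, F y := by
    rw [← Fintype.sum_prod_type' (f := fun y ξ => F (Function.update y a ξ))]
    have e : ∑ p : (∀ a, β a) × β a, F (Function.update p.1 a p.2) =
        ∑ p : (∀ a, β a) × β a, F p.1 := by
      refine Fintype.sum_equiv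
        ⟨fun p => (Function.update p.1 a p.2, p.1 a), fun p => (Function.update p.1 a p.2, p.1 a),
          fun p => ?_, fun p => ?_⟩ _ _ fun p => rfl
      · ext1 <;> simp
      · ext1 <;> simp
    rw [e, Fintype.sum_prod_type' (f := fun (y : ∀ a, β a) (_ : β a) => F y)]
    simp only [sum_const, card_univ, nsmul_eq_mul]
    rw [← mul_sum]
  rw [h]
  field_simp

section

variable {A U : Type} [Fintype A] [DecidableEq A] [Fintype U] [Nonempty U] {k : A → ℕ}
  [∀ a, NeZero (k a)]

/-- product over the choices of copies of the coordinates in `T` -/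
noncomputable def PT (φ : (A → U) → ℝ) (T : Finset A) (y : ∀ a, Fin (k a) → U) : ℝ :=
  ∏ g ∈ Fintype.piFinset (fun a => if a ∈ T then (univ : Finset (Fin (k a))) else {0}),
    φ fun a => y a (g a)

lemma PT_nonneg {φ : (A → U) → ℝ} (hφ : ∀ u, 0 ≤ φ u) (T : Finset A)
    (y : ∀ a, Fin (k a) → U) : 0 ≤ PT φ T y :=
  prod_nonneg fun _ _ => hφ _

lemma PT_insert (φ : (A → U) → ℝ) {T : Finset A} {a : A} (ha : a ∉ T)
    (y : ∀ a, Fin (k a) → U) :
    PT φ (insert a T) y = ∏ j : Fin (k a), PT φ T (Function.update y a fun _ => y a j) := by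
  unfold PT
  rw [← Finset.prod_product']
  refine (Finset.prod_nbij' (fun p : Fin (k a) × (∀ a, Fin (k a)) => Function.update p.2 a p.1)
    (fun g => (g a, Function.update g a 0)) ?_ ?_ ?_ ?_ ?_).symm
  · rintro ⟨j, g⟩ hg
    simp only [mem_product, mem_univ, true_and, Fintype.mem_piFinset] at hg ⊢
    intro b
    by_cases hb : b = a
    · subst hb; simp
    · rw [Function.update_of_ne hb]
      have := hg b
      by_cases hT : b ∈ T
      · simp [hT]
      · simpa [hT, hb] using this
  · intro g hg
    simp only [mem_product, mem_univ, true_and, Fintype.mem_piFinset] at hg ⊢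
    intro b
    by_cases hb : b = a
    · subst hb; simp [ha]
    · rw [Function.update_of_ne hb]
      have := hg b
      by_cases hT : b ∈ T
      · simp [hT]
      · simpa [hT, hb] using this
  · rintro ⟨j, g⟩ hg
    simp only [mem_product, mem_univ, true_and, Fintype.mem_piFinset] at hg
    have h0 := hg a
    rw [if_neg ha, mem_singleton] at h0
    ext1
    · simp
    · simp only [Function.update_idem]
      rw [← h0, Function.update_eq_self]
  · intro g _
    simp
  · rintro ⟨j, g⟩ _
    refine congrArg φ (funext fun b => ?_)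
    by_cases hb : b = a
    · subst hb; simp
    · simp only [Function.update_of_ne hb]

lemma PT_update (φ : (A → U) → ℝ) {T : Finset A} {a : A} (ha : a ∉ T)
    (y : ∀ a, Fin (k a) → U) (ξ : Fin (k a) → U) :
    PT φ T (Function.update y a ξ) = PT φ T (Function.update y a fun _ => ξ 0) := by
  unfold PT
  refine prod_congr rfl fun g hg => ?_
  rw [Fintype.mem_piFinset] at hg
  have h0 := hg a
  rw [if_neg ha, mem_singleton] at h0
  refine congrArg φ (funext fun b => ?_)
  by_cases hb : b = a
  · subst hb; simp [h0]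
  · simp only [Function.update_of_ne hb]

lemma PT_step {φ : (A → U) → ℝ} (hφ : ∀ u, 0 ≤ φ u) {T : Finset A} {a : A} (ha : a ∉ T) :
    avg (fun y : ∀ a, Fin (k a) → U => PT φ T y) ^ k a ≤
      avg fun y : ∀ a, Fin (k a) → U => PT φ (insert a T) y := by
  rw [← avg_update a (fun y : ∀ a, Fin (k a) → U => PT φ T y),
    ← avg_update a (fun y : ∀ a, Fin (k a) → U => PT φ (insert a T) y)]
  have h1 : ∀ y : ∀ a, Fin (k a) → U, (avg fun ξ : Fin (k a) → U => PT φ T (Function.update y a ξ))
      = avg fun u : U => PT φ T (Function.update y a fun _ => u) := by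
    intro y
    simp only [PT_update φ ha y]
    exact avg_eval (k a) 0 fun u => PT φ T (Function.update y a fun _ => u)
  have h2 : ∀ y : ∀ a, Fin (k a) → U,
      (avg fun ξ : Fin (k a) → U => PT φ (insert a T) (Function.update y a ξ))
      = (avg fun u : U => PT φ T (Function.update y a fun _ => u)) ^ k a := by
    intro y
    rw [← avg_pi]
    congr 1
    ext ξ
    rw [PT_insert φ ha]
    refine prod_congr rfl fun j _ => ?_
    simp
  simp only [h1, h2]
  refine avg_jensen (fun y => ?_) _
  unfold avg
  exact div_nonneg (sum_nonneg fun u _ => PT_nonneg hφ _ _) (by positivity)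

lemma PT_all {φ : (A → U) → ℝ} (hφ : ∀ u, 0 ≤ φ u) (T : Finset A) :
    avg (fun y : ∀ a, Fin (k a) → U => PT φ ∅ y) ^ (∏ a ∈ T, k a) ≤
      avg fun y : ∀ a, Fin (k a) → U => PT φ T y := by
  induction T using Finset.induction_on with
  | empty => simp
  | insert a T ha ih =>
    rw [prod_insert ha, mul_comm, pow_mul]
    refine le_trans (pow_le_pow_left₀ (pow_nonneg ?_ _) ih _) (PT_step hφ ha)
    unfold avg
    exact div_nonneg (sum_nonneg fun y _ => PT_nonneg hφ _ _) (by positivity)

end

end Vale.Agent.P050.H19
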